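import Vale.Agent.P221X.TD.Twr
import Vale.Agent.P257.H702.HasV
import Vale.Agent.P221.St.IntA
import Vale.Agent.P221.St.FP

/-!
# P221X, row TWR: the tower in the statement layer

`Twr.genMoore`: `V2` is a generalised Moore spectrum of type three.
-/

open CategoryTheory MonoidalCategory Limits Pretriangulated MonObj

set_option linter.unusedSectionVars false

universe u

noncomputable section

namespace Vale.Agent.P221X.TD

open Vale.Agent.P251 Vale.Agent.P251.T Vale.Agent.P251.M Vale.Agent.P251.S Vale.Agent.P251.F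
  Vale.Agent.P251.I Vale.Agent.P257.H314 Vale.Agent.P257.H702 Vale.Agent.P257.H80
  Vale.Agent.P251.St
open Vale.Agent.P251.M.EvenSpheres

section lib

variable {T : Type u} [Category.{0} T] [Preadditive T] [HasZeroObject T] [HasShift T ℤ]
  [∀ n : ℤ, (shiftFunctor T n).Additive] [Pretriangulated T] [IsTriangulated T]
  [MonoidalCategory T] [SymmetricCategory T] [TensorTriangulated T] [MonoidalClosed T]
  [HasCoproducts.{0} T] [HasProducts.{0} T] [StableCat T]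

/-- a self map which is `w` in `K`-homology is the multiplication by `w` on `K ⊗ V` -/
theorem whiskerLeft_self {K A V : T} [MonObj K] {w : A ⟶ K} {f : A ⊗ V ⟶ V}
    (h : f ≫ (λ_ V).inv ≫ η[K] ▷ V = w ▷ V) :
    K ◁ f = (α_ K A V).inv ≫ (K ◁ w ≫ μ[K]) ▷ V := by
  have h2 : K ◁ ((λ_ V).inv ≫ η[K] ▷ V) ≫ (α_ K K V).inv ≫ μ[K] ▷ V = 𝟙 (K ⊗ V) := by
    rw [MonoidalCategory.whiskerLeft_comp, Category.assoc, associator_inv_naturality_middle_assoc,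
      ← comp_whiskerRight, MonObj.mul_one]
    simp
  rw [← Category.comp_id (K ◁ f), ← h2, ← MonoidalCategory.whiskerLeft_comp_assoc, h,
    associator_inv_naturality_middle_assoc, ← comp_whiskerRight]

variable {D : MUData T} {p : ℕ} [Fact p.Prime]

/-- the class `v_(k+1)` of the `p`-series is Hazewinkel's generator modulo `I_(k+1)` -/
theorem inI_haz {K : T} [MonObj K] [IsCommMonObj K] (u : D.R ⟶ K) [IsMonHom u]
    {Φ : MvPolynomial ℕ ℤ →+* HRing (stdEven T) K} (hlaw : lawOf u = (haz p).map Φ) (k : ℕ)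
    {w : Sv T p (k + 1) ⟶ K}
    (hw : HRing.of (stdEven T) K ((p ^ (k + 1) : ℤ) - 1) w = Φ (MvPolynomial.X k)) :
    InI (vK D p u) (k + 1) (vK D p u (k + 1) - w) := by
  rw [inI_iff_mem_span (w := fun i => (p ^ i : ℤ) - 1)]
  simp only [← vv_lawOf]
  rw [P257.H604.span_vv, hlaw, Ih_haz]
  have h1 : HRing.of (stdEven T) K ((p ^ (k + 1) : ℤ) - 1) (vK D p u (k + 1) - w) =
      HRing.of (stdEven T) K ((p ^ (k + 1) : ℤ) - 1) (vK D p u (k + 1)) -
        HRing.of (stdEven T) K ((p ^ (k + 1) : ℤ) - 1) w :=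
    map_sub (DirectSum.of ((stdEven T).Gr K) _) _ _
  rw [h1, ← vv_lawOf, hlaw, hw]
  exact vv_haz_sub_mem p Φ k

/-- `f1` is Hazewinkel's `v_1` -/
theorem Twr.hur1_haz (W : Twr D p) {K : T} [MonObj K] [IsCommMonObj K] (u : D.R ⟶ K)
    [IsMonHom u] {Φ : MvPolynomial ℕ ℤ →+* HRing (stdEven T) K}
    (hlaw : lawOf u = (haz p).map Φ) {w : Sv T p 1 ⟶ K}
    (hw : HRing.of (stdEven T) K ((p ^ 1 : ℤ) - 1) w = Φ (MvPolynomial.X 0)) :
    W.f1 ≫ (λ_ W.M).inv ≫ η[K] ▷ W.M = w ▷ W.M :=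
  W.hur1_of u (inI_haz u hlaw 0 hw)

/-- `f2` is Hazewinkel's `v_2` -/
theorem Twr.hur2_haz (W : Twr D p) {K : T} [MonObj K] [IsCommMonObj K] (u : D.R ⟶ K)
    [IsMonHom u] {Φ : MvPolynomial ℕ ℤ →+* HRing (stdEven T) K}
    (hlaw : lawOf u = (haz p).map Φ) {w : Sv T p 2 ⟶ K}
    (hw : HRing.of (stdEven T) K ((p ^ 2 : ℤ) - 1) w = Φ (MvPolynomial.X 1)) :
    W.f2 ≫ (λ_ W.V1).inv ≫ η[K] ▷ W.V1 = w ▷ W.V1 :=
  W.hur2_of u (inI_haz u hlaw 1 hw)

end lib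

variable {T : SHCat} {S : Susp T} {p : ℕ} [hp : Fact p.Prime] {D : MUData T.C} {R : RingSp T}
  {o : St.Oriented S R} {φ : P257.St.GHom S p R}

/-- the self maps on the spheres of the statement layer -/
def stMap (S : Susp T) (j : ℕ) {V : T.C} (f : Sv T.C p j ⊗ V ⟶ V) :
    S.obj (St.Cn (p ^ j - 1)) ⊗ V ⟶ V := (spI S hp.out.one_le j).hom ▷ V ≫ f

theorem stMap_dist {j : ℕ} {V V' : T.C} {f : Sv T.C p j ⊗ V ⟶ V} {g : V ⟶ V'}
    {δ : V' ⟶ (Sv T.C p j ⊗ V)⟦(1 : ℤ)⟧} (h : Triangle.mk f g δ ∈ distTriang T.C) :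
    Triangle.mk (stMap S j f) g (δ ≫ ((spI S hp.out.one_le j).inv ▷ V)⟦(1 : ℤ)⟧') ∈
      distTriang T.C :=
  dist_iso' h (whiskerRightIso (spI S hp.out.one_le j).symm V) (Iso.refl _) (Iso.refl _)
    (by
      change f ≫ 𝟙 V = (spI S hp.out.one_le j).inv ▷ V ≫ (spI S hp.out.one_le j).hom ▷ V ≫ f
      rw [inv_hom_whiskerRight_assoc, Category.comp_id])
    (by simp) (Category.id_comp _).symm

theorem stMap_hur {j : ℕ} {V : T.C} {f : Sv T.C p j ⊗ V ⟶ V}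
    {w : S.obj (St.Cn (p ^ j - 1)) ⟶ R.obj}
    (h : f ≫ (λ_ V).inv ≫ η[R.obj] ▷ V = ((spI S hp.out.one_le j).inv ≫ w) ▷ V) :
    stMap S j f ≫ (λ_ V).inv ≫ η[R.obj] ▷ V = w ▷ V := by
  rw [stMap, Category.assoc, h, ← comp_whiskerRight, Iso.hom_inv_id_assoc]

theorem induces_of_hur {k : ℕ} {V : T.C} {f : S.obj (St.Cn k) ⊗ V ⟶ V}
    {w : S.obj (St.Cn k) ⟶ R.obj} (h : f ≫ (λ_ V).inv ≫ η[R.obj] ▷ V = w ▷ V) :
    P221.St.InducesMul w f := by
  intro m y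
  change y ≫ R.obj ◁ f = y ≫ (α_ _ _ _).inv ≫ ((𝟙 R.obj ⊗ₘ w) ≫ μ[R.obj]) ▷ V
  rw [whiskerLeft_self h, id_tensorHom]

namespace Twr

variable (W : Twr D p) (U : MUFam (M.lineIso S.toSpaceFunctor) D) (h : P257.St.IsPTyp p o φ)

include U h

theorem hur_st : stMap S 1 W.f1 ≫ (λ_ W.M).inv ≫ η[R.obj] ▷ W.M = P257.St.hazV φ 1 ▷ W.M ∧
    stMap S 2 W.f2 ≫ (λ_ W.V1).inv ≫ η[R.obj] ▷ W.V1 = P257.St.hazV φ 2 ▷ W.V1 := by
  obtain ⟨u, hu, ho⟩ := U.exists_mapS o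
  obtain ⟨Φ, hΦ, hlaw⟩ := exists_hom h
  have h1 : lawOf u = (haz p).map Φ := by rw [← hlaw, U.lawS_eq ho]; rfl
  exact ⟨stMap_hur (W.hur1_haz u h1 (P257.H604.of_hazV hp.out.one_le hΦ 1)),
    stMap_hur (W.hur2_haz u h1 (P257.H604.of_hazV hp.out.one_le hΦ 2))⟩

theorem induces1 : P221.St.InducesMul (P257.St.hazV φ 1) (stMap S 1 W.f1) :=
  induces_of_hur (W.hur_st U h).1

theorem induces2 : P221.St.InducesMul (P257.St.hazV φ 2) (stMap S 2 W.f2) :=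
  induces_of_hur (W.hur_st U h).2

omit U h in
theorem distM' : Triangle.mk (((p : ℤ) ^ 1) • 𝟙 (𝟙_ T.C)) W.iM W.δM ∈ distTriang T.C := by
  rw [pow_one]
  exact W.distM

/-- the generalised Moore spectra of the tower -/
theorem genMoore : P221.St.IsGenMoore φ 1 W.M ∧ P221.St.IsGenMoore φ 2 W.V1 ∧
    P221.St.IsGenMoore φ 3 W.V2 := by
  have h1 : P221.St.IsGenMoore φ 1 W.M := .base Nat.one_pos W.distM'
  have h2 : P221.St.IsGenMoore φ 2 W.V1 :=
    .step (w := ⟨_, P257.St.vEl_mem p 1⟩) h1 Nat.one_pos (pow_one _).symm (W.induces1 U h)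
      (stMap_dist W.dist1)
  exact ⟨h1, h2, .step (w := ⟨_, P257.St.vEl_mem p 2⟩) h2 Nat.one_pos (pow_one _).symm
    (W.induces2 U h) (stMap_dist W.dist2)⟩

/-- the generalised Moore spectra of the tower, for the definitions of `St/IntA.lean` -/
theorem genMooreI : P221.StI.IsGenMoore φ 1 W.M ∧ P221.StI.IsGenMoore φ 2 W.V1 ∧
    P221.StI.IsGenMoore φ 3 W.V2 := by
  have h1 : P221.StI.IsGenMoore φ 1 W.M := .base Nat.one_pos W.distM'
  have h2 : P221.StI.IsGenMoore φ 2 W.V1 :=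
    .step (w := ⟨_, P257.St.vEl_mem p 1⟩) h1 Nat.one_pos (pow_one _).symm (W.induces1 U h)
      (stMap_dist W.dist1)
  exact ⟨h1, h2, .step (w := ⟨_, P257.St.vEl_mem p 2⟩) h2 Nat.one_pos (pow_one _).symm
    (W.induces2 U h) (stMap_dist W.dist2)⟩

end Twr

/-- **Row TWR**: `MU`, and a tower which consists of generalised Moore spectra. -/
theorem exists_tower (S : Susp T) (h5 : 5 ≤ p) :
    ∃ (D : MUData T.C) (_ : MUUniv (M.lineIso S.toSpaceFunctor) D)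
      (_ : MUFam (M.lineIso S.toSpaceFunctor) D) (W : Twr D p),
      ∀ (R : RingSp T) (o : St.Oriented S R) (φ : P257.St.GHom S p R),
        P257.St.IsBrownPeterson p o φ → P221.StI.IsGenMoore φ 3 W.V2 := by
  obtain ⟨D, hD, ⟨U⟩, -⟩ := exists_muAll S.toSpaceFunctor (M.lineIso S.toSpaceFunctor)
  obtain ⟨W⟩ := exists_twr D h5
  exact ⟨D, hD, U, W, fun _ _ _ h => (W.genMooreI U h.typ).2.2⟩

end Vale.Agent.P221X.TD
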