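import Vale.Agent.P221X.Base.Top
import Vale.Agent.P221.Loc.Cov
import Vale.Agent.P251.St.ToFunctor
import Vale.Agent.P251.M.SpaceCells

/-!
# P221X: connective covers exist (row COV)
-/

open CategoryTheory MonoidalCategory Limits Pretriangulated

namespace Vale.Agent.P221X

open Vale.Agent.P251 Vale.Agent.P251.T Vale.Agent.P251.S Vale.Agent.P251.M Vale.Agent.P221.Loc

universe u

theorem hasCov_of_conn {T : Type u} [Category.{0} T] [Preadditive T] [HasZeroObject T]
    [HasShift T ℤ] [∀ n : ℤ, (shiftFunctor T n).Additive] [Pretriangulated T] [IsTriangulated T]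
    [MonoidalCategory T] [SymmetricCategory T] [TensorTriangulated T] [MonoidalClosed T]
    [HasCoproducts.{0} T] [HasProducts.{0} T] [StableCat T] (h0 : Conn (0 : ℤ) (𝟙_ T)) :
    HasCov T := fun Y => by
  obtain ⟨X, c, hc⟩ := exists_cov 0 Y
  obtain ⟨W, d, w, hT⟩ := distinguished_cocone_triangle c
  have hW := hc.cof_zero h0 hT
  exact ⟨X, W, c, d, w, hT, P257.H762.BigCell.conn' h0 hc.cell, hW, fun k f hk =>
    hom_zero hc.cell (fun j hj => zero_shift hW k k (zero_add k) j (hk.trans hj)) f⟩

/-- the unit of a stable homotopy category is connective -/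
theorem conn_one {T : St.SHCat} (S : St.Susp T) : Conn (0 : ℤ) (𝟙_ T.C) :=
  unit_conn S.toSpaceFunctor

/-- **Row COV** -/
theorem hasCov (T : St.SHCat) (S : St.Susp T) : HasCov T.C := hasCov_of_conn (conn_one S)

end Vale.Agent.P221X
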