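import Vale.Agent.P257.H314.Line
import Vale.Agent.P257.H702.Final
import Vale.Agent.P221X.Base.Top

/-!
# P221X, row TWR: the tower `M = S / p`, `V(1)`, `V(2)` for `p ≥ 5`

`Twr D p`: the Moore spectrum `M`, the Smith-Toda complexes `V1`, `V2`, unital products on `M` and
`V1`, and the self maps `f1`, `f2`, which are `v_1` and `v_2` in `MU`-homology as maps.
-/

open CategoryTheory MonoidalCategory Limits Pretriangulated MonObj

set_option linter.unusedSectionVars false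

universe u

noncomputable section

namespace Vale.Agent.P221X.TD

open Vale.Agent.P251 Vale.Agent.P251.T Vale.Agent.P251.M Vale.Agent.P251.S Vale.Agent.P251.F
  Vale.Agent.P257.H314 Vale.Agent.P257.H702
open Vale.Agent.P251.M.EvenSpheres

/-! ### The vanishing statements -/

section van

variable {p : ℕ} [Fact p.Prime]

theorem van_of_lt {h s : ℕ} (hh : 1 ≤ h) {W : ℤ} (hW : W < s) :
    AlgVan p h s (((p : ℤ) - 1) * W) := by
  refine algVan_line hh ?_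
  rintro ⟨-, h2⟩
  have hp' : (0 : ℤ) < (p : ℤ) - 1 := by
    have := (Fact.out : p.Prime).one_lt
    omega
  have := le_of_mul_le_mul_left h2 hp'
  omega

theorem Wn_zero : Wn p 0 = 0 := by simp [Wn]

theorem Wn_one : Wn p 1 = 1 := by simp [Wn]

theorem Wn_two : Wn p 2 = 1 + p := by simp [Wn, Finset.sum_range_succ]

theorem liftVan (h5 : 5 ≤ p) {h : ℕ} (h1 : 1 ≤ h) (h2 : h ≤ 2) : LiftVan p h := by
  refine liftVan_of h1 fun k hk => van_of_lt h1 ?_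
  have h3 : Wn p h ≤ 1 + p := by
    interval_cases h
    · rw [Wn_one]; omega
    · rw [Wn_two]
  have h4 : (Wn p h : ℤ) ≤ 1 + p := by exact_mod_cast h3
  have h6 : (5 : ℤ) ≤ p := by exact_mod_cast h5
  have h7 : (1 : ℤ) ≤ k := by exact_mod_cast hk
  push_cast [Nat.cast_sub (show 1 ≤ p by omega)]
  nlinarith

theorem sum_le_one {h : ℕ} (h2 : h ≤ 2) {A : Finset ℕ} (hA : A ⊆ Finset.range h) :
    ∑ a ∈ A, (Wn p a : ℤ) ≤ 1 ∧ A.card ≤ 2 := by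
  have h3 : A ⊆ Finset.range 2 := hA.trans (Finset.range_subset_range.2 h2)
  constructor
  · refine (Finset.sum_le_sum_of_subset_of_nonneg h3 fun _ _ _ => by positivity).trans ?_
    simp [Finset.sum_range_succ, Wn_zero, Wn_one]
  · simpa using Finset.card_le_card h3

theorem prodVan (h5 : 5 ≤ p) {h : ℕ} (h1 : 1 ≤ h) (h2 : h ≤ 2) : ProdVan p h := by
  refine prodVan_of h1 fun A B hA hB _ _ k hk s hs => van_of_lt h1 ?_
  obtain ⟨a1, a2⟩ := sum_le_one (p := p) h2 hA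
  obtain ⟨b1, b2⟩ := sum_le_one (p := p) h2 hB
  have h3 : 2 * (p - 1) * k ≤ s + 3 := by omega
  have h4 : 8 * k ≤ 2 * (p - 1) * k := Nat.mul_le_mul_right k (by omega)
  have h6 : (k : ℤ) + 2 < s := by omega
  linarith

end van

variable {T : Type u} [Category.{0} T] [Preadditive T] [HasZeroObject T] [HasShift T ℤ]
  [∀ n : ℤ, (shiftFunctor T n).Additive] [Pretriangulated T] [IsTriangulated T]
  [MonoidalCategory T] [SymmetricCategory T] [TensorTriangulated T] [MonoidalClosed T]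
  [HasCoproducts.{0} T] [HasProducts.{0} T] [StableCat T]

/-! ### Unital products and classes -/

/-- `w ▷ V` is the product of the class of `w` with `V` -/
theorem whisker_eq {K A V : T} {i : 𝟙_ T ⟶ V} (m : UProd V i) (w : A ⟶ K) :
    (hcls i w) ▷ V ≫ (α_ K V V).hom ≫ K ◁ m.m = w ▷ V := by
  unfold hcls
  rw [comp_whiskerRight, comp_whiskerRight, Category.assoc, Category.assoc,
    associator_naturality_middle_assoc, ← MonoidalCategory.whiskerLeft_comp, m.left_unit]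
  simp

theorem whisker_zero {K A V : T} {i : 𝟙_ T ⟶ V} (m : UProd V i) {w : A ⟶ K}
    (h : hcls i w = 0) : w ▷ V = 0 := by
  rw [← whisker_eq m w, h, MonoidalPreadditive.zero_whiskerRight, zero_comp]

/-- the self map defined by a class `x` and a unital product -/
theorem hur_prod {K A V : T} [MonObj K] {i : 𝟙_ T ⟶ V} (m : UProd V i) {x : A ⟶ V} {w : A ⟶ K}
    (h : x ≫ (λ_ V).inv ≫ η[K] ▷ V = hcls i w) :
    (x ▷ V ≫ m.m) ≫ (λ_ V).inv ≫ η[K] ▷ V = w ▷ V := by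
  rw [← whisker_eq m w, ← h, comp_whiskerRight, comp_whiskerRight, Category.assoc, Category.assoc,
    Category.assoc, associator_naturality_left_assoc, ← whisker_exchange,
    leftUnitor_inv_naturality_assoc]
  simp

theorem hcls_of_inI {K : T} [MonObj K] {S : ℕ → T} {v : ∀ j, S j ⟶ K} {h : ℕ} {V : T}
    {i : 𝟙_ T ⟶ V} (H : ∀ j < h, hcls i (v j) = 0) {A : T} {a : A ⟶ K} (ha : InI v h a) :
    hcls i a = 0 := by
  obtain ⟨b, rfl⟩ := ha
  unfold hcls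
  rw [Preadditive.sum_comp]
  refine Finset.sum_eq_zero fun j hj => ?_
  have h1 : (0 : S j ⟶ V) ≫ (λ_ V).inv ≫ η[K] ▷ V = hcls i (v j) := by
    rw [H j (Finset.mem_range.1 hj), zero_comp]
  have h2 := whiskerLeft_of_hur i (v j) 0 h1
  rw [MonoidalPreadditive.whiskerLeft_zero] at h2
  rw [Category.assoc, Category.assoc, ← h2, comp_zero]

variable {D : I.MUData T} {p : ℕ}

/-- the classes `v_j`, `j < h`, vanish in the homology of `V(h-1)` -/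
theorem hcls_v {h : ℕ} {V : T} {i : 𝟙_ T ⟶ V} (H : STow D p h i) {K : T} [MonObj K]
    (u : D.R ⟶ K) [IsMonHom u] : ∀ j < h, hcls i (vK D p u j) = 0 := by
  induction H with
  | @one C iC δ hC =>
    intro j hj
    obtain rfl : j = 0 := by omega
    have h1 : (p : ℤ) • iC = 0 := by
      have : ((p : ℤ) • 𝟙 (𝟙_ T)) ≫ iC = 0 := comp_distTriang_mor_zero₁₂ _ hC
      simpa using this
    have h2 : (p : ℤ) • (K ◁ iC) = 0 := by
      have h3 : (tensorLeft K).map ((p : ℤ) • iC) = (p : ℤ) • (tensorLeft K).map iC :=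
        Functor.map_zsmul _
      rw [h1, Functor.map_zero] at h3
      exact h3.symm
    rw [vK, vel_zero, hcls, Preadditive.zsmul_comp, Preadditive.zsmul_comp,
      ← Preadditive.comp_zsmul, ← Preadditive.comp_zsmul, h2, comp_zero, comp_zero]
  | @succ h V V' i H x hx f hf j δ hΔ ih =>
    intro l hl
    have h0 : ∀ {A : T} (a : A ⟶ K), hcls (i ≫ j) a = hcls i a ≫ K ◁ j := by
      intro A a
      simp [hcls]
    rw [h0]
    rcases Nat.lt_or_ge l h with h1 | h1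
    · rw [ih l h1, zero_comp]
    · obtain rfl : l = h := by omega
      have h2 : f ≫ j = 0 := comp_distTriang_mor_zero₁₂ _ hΔ
      have h3 : x ≫ j = 0 := by
        rw [← cancel_epi (ρ_ _).hom, ← Category.assoc, ← hf, Category.assoc, h2, comp_zero,
          comp_zero]
      rw [← hur_of_det hx u, Category.assoc, Category.assoc, ← whisker_exchange,
        ← leftUnitor_inv_naturality_assoc, reassoc_of% h3, zero_comp]

/-- the multiplication `N ⊗ A ⟶ N` by `w : A ⟶ K` on a module -/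
def mulR {K N A : T} [MonObj K] (a : ModStr K N) (w : A ⟶ K) : N ⊗ A ⟶ N :=
  (β_ N A).hom ≫ w ▷ N ≫ a.act

/-- a self map which is `w` in `K`-homology is the multiplication by `w` on `N ⊗ V` -/
theorem whiskerLeft_eq {K N A V : T} [MonObj K] (a : ModStr K N) {w : A ⟶ K} {f : A ⊗ V ⟶ V}
    (h : f ≫ (λ_ V).inv ≫ η[K] ▷ V = w ▷ V) :
    N ◁ f = (α_ N A V).inv ≫ mulR a w ▷ V := by
  have h1 : N ◁ η[K] ≫ (β_ N K).hom ≫ a.act = (ρ_ N).hom := by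
    rw [BraidedCategory.braiding_naturality_right_assoc, a.one_act]
    simp
  have h2 : N ◁ ((λ_ V).inv ≫ η[K] ▷ V) ≫ (α_ N K V).inv ≫ ((β_ N K).hom ≫ a.act) ▷ V =
      𝟙 (N ⊗ V) := by
    rw [MonoidalCategory.whiskerLeft_comp, Category.assoc, associator_inv_naturality_middle_assoc,
      ← comp_whiskerRight, h1]
    simp
  have h3 : mulR a w = N ◁ w ≫ (β_ N K).hom ≫ a.act := by
    rw [mulR, BraidedCategory.braiding_naturality_right_assoc]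
  rw [← Category.comp_id (N ◁ f), ← h2, ← MonoidalCategory.whiskerLeft_comp_assoc, h,
    associator_inv_naturality_middle_assoc, ← comp_whiskerRight, h3]

theorem isFin_of_finCell {s : Set ℤ} {X : T} (h : FinCell T s X) : IsFin X := by
  induction h with
  | zero X hX => exact .zero (hX.eq_of_src _ _)
  | sphere d _ => exact .susp d .base
  | ext Δ hΔ _ _ ih₁ ih₃ => exact NM.Thick.obj₂ hΔ ih₁ ih₃

/-- One step of the tower. -/
structure Lev (D : I.MUData T) (p : ℕ) {C : T} (iC : 𝟙_ T ⟶ C) (h : ℕ) {V : T}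
    (i : 𝟙_ T ⟶ V) where
  m : UProd V i
  x : Sv T p h ⟶ V
  det : Det D i x (vw p h 0)
  W : T
  j : V ⟶ W
  δ : W ⟶ (Sv T p h ⊗ V)⟦(1 : ℤ)⟧
  dist : Triangle.mk (x ▷ V ≫ m.m) j δ ∈ distTriang T
  st : IsST D p iC (h + 1) (i ≫ j)

theorem exists_lev [Fact p.Prime] {C : T} {iC : 𝟙_ T ⟶ C} {h : ℕ} {V : T} {i : 𝟙_ T ⟶ V}
    (H : IsST D p iC h i) (hP : ProdVan p h) (hL : LiftVan p h) : Nonempty (Lev D p iC h i) := by
  obtain ⟨m⟩ := H.exists_uprod hP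
  obtain ⟨x, hx⟩ := H.exists_det_v hL
  have hf : ((stdEven T).S ((p ^ h : ℤ) - 1) ◁ i) ≫ (x ▷ V) ≫ m.m = (ρ_ _).hom ≫ x := by
    rw [whisker_exchange_assoc, m.right_unit, rightUnitor_naturality]
  obtain ⟨V', j, δ, hΔ⟩ := distinguished_cocone_triangle ((x ▷ V) ≫ m.m)
  obtain ⟨W, π, δW, hW, hWf⟩ := H.bar
  obtain ⟨W', π', δW', hW'⟩ := distinguished_cocone_triangle (i ≫ j)
  obtain ⟨g, hg⟩ := H.fact
  have hS : FinCell T {2 * ((p ^ h : ℤ) - 1)} ((stdEven T).S ((p ^ h : ℤ) - 1)) :=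
    FinCell.of_iso (sI T _).symm (FinCell.sphere _ rfl)
  have hSV : FinCell T {d | ∃ e ∈ dims p h, d = 2 * ((p ^ h : ℤ) - 1) + e}
      ((stdEven T).S ((p ^ h : ℤ) - 1) ⊗ V) := hS.tensor H.fin (by
    rintro _ rfl e he
    exact ⟨e, he, rfl⟩)
  have hSV1 : FinCell T (dimsPos p (h + 1)) (((stdEven T).S ((p ^ h : ℤ) - 1) ⊗ V)⟦(1 : ℤ)⟧) :=
    hSV.shift 1 (by
      rintro _ ⟨e, he, rfl⟩
      have := dims_succ he
      convert this using 1
      ring)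
  refine ⟨⟨m, x, hx, V', j, δ, hΔ, H.cyc.step rfl hx hf hΔ, ?_, ?_,
    ⟨g ≫ j, by rw [← Category.assoc, hg]⟩, STow.succ H.tow x hx _ hf j δ hΔ⟩⟩
  · exact FinCell.ext _ (rot_of_distTriang _ hΔ) (H.fin.mono (dims_mono p h))
      (hSV1.mono (dimsPos_subset p (h + 1)))
  · refine ⟨W', π', δW', hW', ?_⟩
    have O := (Triangulated.someOctahedron rfl hW (rot_of_distTriang _ hΔ) hW').mem
    exact FinCell.ext _ O (hWf.mono (dimsPos_mono p h)) hSV1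

/-- The tower `M = S / p`, `V1 = V(1)`, `V2 = V(2)`. -/
structure Twr (D : I.MUData T) (p : ℕ) where
  M : T
  iM : 𝟙_ T ⟶ M
  δM : M ⟶ (𝟙_ T)⟦(1 : ℤ)⟧
  distM : Triangle.mk ((p : ℤ) • 𝟙 (𝟙_ T)) iM δM ∈ distTriang T
  m1 : UProd M iM
  f1 : Sv T p 1 ⊗ M ⟶ M
  V1 : T
  j1 : M ⟶ V1
  δ1 : V1 ⟶ (Sv T p 1 ⊗ M)⟦(1 : ℤ)⟧
  dist1 : Triangle.mk f1 j1 δ1 ∈ distTriang T
  m2 : UProd V1 (iM ≫ j1)
  f2 : Sv T p 2 ⊗ V1 ⟶ V1
  V2 : T
  j2 : V1 ⟶ V2
  δ2 : V2 ⟶ (Sv T p 2 ⊗ V1)⟦(1 : ℤ)⟧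
  dist2 : Triangle.mk f2 j2 δ2 ∈ distTriang T
  hur1' : f1 ≫ (λ_ M).inv ≫ η[D.R] ▷ M = D.vel p 1 ▷ M
  hur2' : f2 ≫ (λ_ V1).inv ≫ η[D.R] ▷ V1 = D.vel p 2 ▷ V1
  st1 : IsST D p iM 1 iM
  st2 : IsST D p iM 2 (iM ≫ j1)
  st3 : IsST D p iM 3 ((iM ≫ j1) ≫ j2)

theorem Lev.hur {C : T} {iC : 𝟙_ T ⟶ C} {h : ℕ} {V : T} {i : 𝟙_ T ⟶ V} (L : Lev D p iC h i) :
    (L.x ▷ V ≫ L.m.m) ≫ (λ_ V).inv ≫ η[D.R] ▷ V = D.vel p h ▷ V := by
  have h1 := hur_prod L.m (hur_of_det L.det (𝟙 D.R))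
  rwa [vK, Category.comp_id] at h1

/-- **The tower exists** for `p ≥ 5`, on every Moore spectrum. -/
theorem exists_twr' [Fact p.Prime] (D : I.MUData T) (h5 : 5 ≤ p) {M : T} {iM : 𝟙_ T ⟶ M}
    {δM : M ⟶ (𝟙_ T)⟦(1 : ℤ)⟧}
    (hM : Triangle.mk ((p : ℤ) • 𝟙 (𝟙_ T)) iM δM ∈ distTriang T) :
    ∃ W : Twr D p, (⟨W.M, W.iM, W.δM⟩ : Σ X : T, (𝟙_ T ⟶ X) × (X ⟶ (𝟙_ T)⟦(1 : ℤ)⟧)) =
      ⟨M, iM, δM⟩ := by
  have H₁ : IsST D p iM 1 iM := isST_one (by omega) hM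
  obtain ⟨L₁⟩ := exists_lev H₁ (prodVan h5 le_rfl (by norm_num)) (liftVan h5 le_rfl (by norm_num))
  obtain ⟨L₂⟩ := exists_lev L₁.st (prodVan h5 (by norm_num) le_rfl)
    (liftVan h5 (by norm_num) le_rfl)
  exact ⟨⟨M, iM, δM, hM, L₁.m, _, L₁.W, L₁.j, L₁.δ, L₁.dist, L₂.m, _, L₂.W, L₂.j, L₂.δ, L₂.dist,
    L₁.hur, L₂.hur, H₁, L₁.st, L₂.st⟩, rfl⟩

/-- **The tower exists** for `p ≥ 5`. -/
theorem exists_twr [Fact p.Prime] (D : I.MUData T) (h5 : 5 ≤ p) : Nonempty (Twr D p) := by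
  obtain ⟨M, iM, δM, hM⟩ := distinguished_cocone_triangle ((p : ℤ) • 𝟙 (𝟙_ T))
  obtain ⟨W, -⟩ := exists_twr' D h5 hM
  exact ⟨W⟩

theorem hur_push {A V K : T} [MonObj K] (u : D.R ⟶ K) [IsMonHom u] {f : A ⊗ V ⟶ V}
    {w : A ⟶ D.R} (h : f ≫ (λ_ V).inv ≫ η[D.R] ▷ V = w ▷ V) :
    f ≫ (λ_ V).inv ≫ η[K] ▷ V = (w ≫ u) ▷ V := by
  rw [comp_whiskerRight, ← h, Category.assoc, Category.assoc, ← comp_whiskerRight,
    IsMonHom.one_hom]

namespace Twr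

variable (W : Twr D p)

theorem finM : IsFin W.M := isFin_of_finCell W.st1.fin

theorem fin1 : IsFin W.V1 := isFin_of_finCell W.st2.fin

theorem fin2 : IsFin W.V2 := isFin_of_finCell W.st3.fin

variable {K : T} [MonObj K] (u : D.R ⟶ K) [IsMonHom u]

theorem hur1 : W.f1 ≫ (λ_ W.M).inv ≫ η[K] ▷ W.M = vK D p u 1 ▷ W.M := hur_push u W.hur1'

theorem hur2 : W.f2 ≫ (λ_ W.V1).inv ≫ η[K] ▷ W.V1 = vK D p u 2 ▷ W.V1 := hur_push u W.hur2'

/-- the ideal `I_1 = (p)` kills `K ⊗ M` -/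
theorem ann1 {A : T} {w : A ⟶ K} (h : InI (vK D p u) 1 w) : w ▷ W.M = 0 :=
  whisker_zero W.m1 (hcls_of_inI (hcls_v W.st1.tow u) h)

/-- the ideal `I_2 = (p, v_1)` kills `K ⊗ V1` -/
theorem ann2 {A : T} {w : A ⟶ K} (h : InI (vK D p u) 2 w) : w ▷ W.V1 = 0 :=
  whisker_zero W.m2 (hcls_of_inI (hcls_v W.st2.tow u) h)

theorem hur1_of {w : Sv T p 1 ⟶ K} (h : InI (vK D p u) 1 (vK D p u 1 - w)) :
    W.f1 ≫ (λ_ W.M).inv ≫ η[K] ▷ W.M = w ▷ W.M := by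
  have h1 := W.ann1 u h
  have h2 : (vK D p u 1 - w) ▷ W.M = vK D p u 1 ▷ W.M - w ▷ W.M := (tensorRight W.M).map_sub
  rw [W.hur1 u, ← sub_eq_zero, ← h2, h1]

theorem hur2_of {w : Sv T p 2 ⟶ K} (h : InI (vK D p u) 2 (vK D p u 2 - w)) :
    W.f2 ≫ (λ_ W.V1).inv ≫ η[K] ▷ W.V1 = w ▷ W.V1 := by
  have h1 := W.ann2 u h
  have h2 : (vK D p u 2 - w) ▷ W.V1 = vK D p u 2 ▷ W.V1 - w ▷ W.V1 := (tensorRight W.V1).map_sub
  rw [W.hur2 u, ← sub_eq_zero, ← h2, h1]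

/-- on a module, `f1` is the multiplication by `v_1` -/
theorem mod1 {N : T} (a : ModStr K N) :
    N ◁ W.f1 = (α_ N _ W.M).inv ≫ mulR a (vK D p u 1) ▷ W.M := whiskerLeft_eq a (W.hur1 u)

/-- on a module, `f2` is the multiplication by `v_2` -/
theorem mod2 {N : T} (a : ModStr K N) :
    N ◁ W.f2 = (α_ N _ W.V1).inv ≫ mulR a (vK D p u 2) ▷ W.V1 := whiskerLeft_eq a (W.hur2 u)

omit u in
theorem zeroM_iff (N : T) : IsZero (N ⊗ W.M) ↔ IsIso (N ◁ ((p : ℤ) • 𝟙 (𝟙_ T))) :=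
  Triangle.isZero₃_iff_isIso₁ _ ((tensorLeft N).map_distinguished _ W.distM)

omit u in
theorem zero1_iff (N : T) : IsZero (N ⊗ W.V1) ↔ IsIso (N ◁ W.f1) :=
  Triangle.isZero₃_iff_isIso₁ _ ((tensorLeft N).map_distinguished _ W.dist1)

omit u in
theorem zero2_iff (N : T) : IsZero (N ⊗ W.V2) ↔ IsIso (N ◁ W.f2) :=
  Triangle.isZero₃_iff_isIso₁ _ ((tensorLeft N).map_distinguished _ W.dist2)

omit u in
theorem zero1_of_zeroM {N : T} (h : IsZero (N ⊗ W.M)) : IsZero (N ⊗ W.V1) := by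
  have h1 : IsZero (N ⊗ (Sv T p 1 ⊗ W.M)) :=
    (Acyclic.tensor_left (K := N) (W := W.M) h (Sv T p 1) :)
  exact (W.zero1_iff N).2 (isIso_of_source_target_iso_zero _ h1.isoZero h.isoZero)

omit u in
theorem zero2_of_zero1 {N : T} (h : IsZero (N ⊗ W.V1)) : IsZero (N ⊗ W.V2) := by
  have h1 : IsZero (N ⊗ (Sv T p 2 ⊗ W.V1)) :=
    (Acyclic.tensor_left (K := N) (W := W.V1) h (Sv T p 2) :)
  exact (W.zero2_iff N).2 (isIso_of_source_target_iso_zero _ h1.isoZero h.isoZero)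

theorem zero1_mod {N : T} (a : ModStr K N) :
    IsZero (N ⊗ W.V1) ↔ IsIso (mulR a (vK D p u 1) ▷ W.M) := by
  rw [W.zero1_iff, W.mod1 u a]
  exact isIso_comp_left_iff _ _

theorem zero2_mod {N : T} (a : ModStr K N) :
    IsZero (N ⊗ W.V2) ↔ IsIso (mulR a (vK D p u 2) ▷ W.V1) := by
  rw [W.zero2_iff, W.mod2 u a]
  exact isIso_comp_left_iff _ _

end Twr

end Vale.Agent.P221X.TD
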